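import Vale.Agent.P251EJ.DefsS

/-!
# P251EJ, row FIN: from the coinvariants theorem and the null-homotopy to torsion
-/

open CategoryTheory MonoidalCategory Limits Pretriangulated Set Topology OnePoint

universe v u

noncomputable section

namespace Vale.Agent.P251EJ49

open Vale.Agent.P251 Vale.Agent.P251.T Vale.Agent.P251.G Vale.Agent.P251.G.LC
  Vale.Agent.P251.G.Cell Vale.Agent.P251.I Vale.Agent.P251EJ

variable {T : Type u} [Category.{v} T] [Preadditive T] [HasZeroObject T]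
    [HasShift T ℤ] [∀ n : ℤ, (shiftFunctor T n).Additive] [Pretriangulated T]
    [MonoidalCategory T] [SymmetricCategory T] [TensorTriangulated T] (F : SpaceFunctor T)

section

variable {X Y Z : Type} [TopologicalSpace X] [CompactSpace X] [T2Space X] [TopologicalSpace Y]
  [CompactSpace Y] [T2Space Y] [TopologicalSpace Z] [CompactSpace Z] [T2Space Z]

theorem sm_comp (hX : FC (LC.of X)) (hY : FC (LC.of Y)) (hZ : FC (LC.of Z)) (f : C(X, Y))
    (g : C(Y, Z)) : Sm F hX hY f ≫ Sm F hY hZ g = Sm F hX hZ (g.comp f) := by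
  unfold Sm
  rw [← F.S.map_comp]
  congr 1
  apply ObjectProperty.hom_ext
  apply LC.hom_ext
  intro x
  rfl

theorem sm_toSph (hX : FC (LC.of X)) (hY : FC (LC.of Y)) (f : C(X, Y)) {n : ℕ}
    (g : C(Y, Sp n)) :
    Sm F hX hY f ≫ F.S.map (toSph hY g) = F.S.map (toSph hX (g.comp f)) := by
  unfold Sm
  rw [← F.S.map_comp]
  congr 1
  apply ObjectProperty.hom_ext
  apply LC.hom_ext
  intro x
  rfl

theorem sm_homotopic (hX : FC (LC.of X)) (hY : FC (LC.of Y)) {f g : C(X, Y)}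
    (h : f.Homotopic g) : Sm F hX hY f = Sm F hX hY g := by
  obtain ⟨H⟩ := h
  unfold Sm
  apply F.map_eq
  refine ⟨ofCompact (X := LC.of (X × unitInterval)) (Y := LC.of Y) (fun p => H (p.2, p.1))
    ((map_continuous H).comp (continuous_snd.prodMk continuous_fst)), ?_, ?_⟩
  · apply LC.hom_ext
    intro x
    exact congrArg (fun y : Y => (y : OnePoint Y)) (H.apply_zero x)
  · apply LC.hom_ext
    intro x
    exact congrArg (fun y : Y => (y : OnePoint Y)) (H.apply_one x)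

end

/-- the projections of a power -/
def pr {M : ℕ} (X : Type) [TopologicalSpace X] (j : Fin M) : C(Fin M → X, X) :=
  ⟨fun y => y j, continuous_apply j⟩

theorem finS : FinS F := by
  intro hC hB hχ hS hcell hN hP k n hn hnk f
  let f0 : C(Sp k, Sp n) := Hom.toMap f.hom
  have hf0 : f0 ∞ = ∞ := Hom.map_infty f.hom
  obtain ⟨M, hM⟩ := hN k n hn hnk f0 hf0
  obtain ⟨Z, _, _, _, q, hq, hqe⟩ := hS (M + 1) (Sp n)
  obtain ⟨C, hCq, hact⟩ := hcell hB hχ n (M + 1) Z q hq hqe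
  obtain ⟨hY, hZ, cov⟩ := hC (Equiv.Perm (Fin (M + 1))) (Fin (M + 1) → Sp n) Z C
  obtain ⟨z, hz⟩ := hM Z q fun σ y => ((hqe y (y ∘ σ)).2 ⟨σ, rfl⟩).symm
  obtain ⟨h1, hk, hplus⟩ := hP k
  let φ : F.S.obj (FCat.mk hY) ⟶ F.S.obj (SphF n) :=
    ∑ j : Fin (M + 1), F.S.map (toSph hY (pr (Sp n) j))
  have hφ : ∀ σ : Equiv.Perm (Fin (M + 1)), Sm F hY hY (C.act σ) ≫ φ = φ := by
    intro σ
    simp only [φ, Preadditive.comp_sum, sm_toSph]
    rw [← Equiv.sum_comp σ (fun j => F.S.map (toSph hY (pr (Sp n) j)))]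
    refine Finset.sum_congr rfl fun j _ => ?_
    congr 2
    ext y
    change (C.act σ y) j = y (σ j)
    rw [hact]
    rfl
  obtain ⟨m, b, hm, hb⟩ := cov.surj _ φ hφ
  refine ⟨m, hm, hplus _ _ (Sm F h1 hZ (ContinuousMap.const _ z) ≫ b -
    m • ∑ _j : Fin M, F.S.map (toSph h1 (ContinuousMap.const _ (∞ : Sp n)))) ?_⟩
  have e1 : F.S.map (toSph hk (ContinuousMap.id _)) ≫ F.S.map f = F.S.map (toSph hk f0) := by
    rw [← F.S.map_comp]
    congr 1
    apply ObjectProperty.hom_ext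
    apply LC.hom_ext
    intro x
    rfl
  have e2 : Sm F hk hY ((inc0 M n).comp f0) ≫ φ = F.S.map (toSph hk f0) +
      ∑ _j : Fin M, F.S.map (toSph hk (ContinuousMap.const _ (∞ : Sp n))) := by
    simp only [φ, Preadditive.comp_sum, sm_toSph]
    rw [Fin.sum_univ_succ]
    congr 1
  have e3 : Sm F hk hY ((inc0 M n).comp f0) ≫ Sm F hY hZ C.q =
      Sm F hk h1 (ContinuousMap.const _ ()) ≫ Sm F h1 hZ (ContinuousMap.const _ z) := by
    rw [sm_comp, sm_comp, hCq, sm_homotopic F hk hZ hz]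
    rfl
  have e4 : Sm F hk h1 (ContinuousMap.const _ ()) ≫
      ∑ _j : Fin M, F.S.map (toSph h1 (ContinuousMap.const _ (∞ : Sp n))) =
      ∑ _j : Fin M, F.S.map (toSph hk (ContinuousMap.const _ (∞ : Sp n))) := by
    simp only [Preadditive.comp_sum, sm_toSph]
    rfl
  rw [Preadditive.comp_zsmul, e1, Preadditive.comp_sub, Preadditive.comp_zsmul, e4,
    ← Category.assoc, ← e3, Category.assoc, hb, Preadditive.comp_zsmul, e2, smul_add,
    add_sub_cancel_right]

end Vale.Agent.P251EJ49
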